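import Vale.Agent.P145.FB.Geo
import Vale.Agent.P145.FB.Tassion

/-!
# P159, T1, row A6 / R6: an arm from a box gives an easy crossing

Letters of P145/FB: `rc a b c d = [2a, 2b] × [2c, 2d]`, `P.L w h` = probability of a left-right
crossing of a rectangle of width `w` and height `h`.
-/

namespace Vale.Agent.P159.TM.H121

open Vale.Agent.P145.FB

/-- The sup norm of a point of the fine lattice. -/
def nrm (z : ℤ × ℤ) : ℤ := max (max z.1 (-z.1)) (max z.2 (-z.2))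

theorem nrm_nn (u v : ℤ × ℤ) (h : NN u v) : nrm v ≤ nrm u + 1 := by
  unfold nrm NN at *
  omega

/-- An open path (anywhere in the plane) from the box of half side `t` to distance `2t`. -/
def Out (t : ℤ) (S : Set (ℤ × ℤ)) : Prop :=
  ∃ x y, NC S x y ∧ x ∈ rc (-t) t (-t) t ∧ 4 * t ≤ nrm y

/-- An open path (anywhere in the plane) from the box of half side `t` at `0` to its translate
by `(3t, 0)`. -/
def Tr (t : ℤ) (S : Set (ℤ × ℤ)) : Prop :=
  ∃ x y, NC S x y ∧ x ∈ rc (-t) t (-t) t ∧ y ∈ rc (2 * t) (4 * t) (-t) t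

theorem Tr.out {t : ℤ} {S : Set (ℤ × ℤ)} (h : Tr t S) : Out t S := by
  obtain ⟨x, y, h1, h2, h3⟩ := h
  refine ⟨x, y, h1, h2, ?_⟩
  rw [mem_rc] at h3
  unfold nrm
  omega

/-- The four easy crossings. -/
theorem Out.cases {t : ℤ} (ht : 1 ≤ t) {S : Set (ℤ × ℤ)} (h : Out t S) :
    LRc t (2 * t) (-(2 * t)) (2 * t) S ∨ (LRc (-(2 * t)) (-t) (-(2 * t)) (2 * t) S ∨
      (BTc (-(2 * t)) (2 * t) t (2 * t) S ∨ BTc (-(2 * t)) (2 * t) (-(2 * t)) (-t) S)) := by
  obtain ⟨x, y, h1, h2, h3⟩ := h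
  rw [mem_rc] at h2
  obtain ⟨z, hz, h4⟩ := h1.first nrm_nn (d := 4 * t) (by unfold nrm; omega) h3
  have hb : ∀ u : ℤ × ℤ, nrm u ≤ 4 * t → -(4 * t) ≤ u.1 ∧ u.1 ≤ 4 * t ∧ -(4 * t) ≤ u.2 ∧
      u.2 ≤ 4 * t := by
    intro u hu
    unfold nrm at hu
    omega
  have hc : z.1 = 4 * t ∨ z.1 = -(4 * t) ∨ z.2 = 4 * t ∨ z.2 = -(4 * t) := by
    unfold nrm at hz
    omega
  rcases hc with h | h | h | h
  · left
    obtain ⟨a, b, ha, hb', hab, _, _⟩ := h4.exit (f := Prod.fst) nn_fst (c := 2 * t) (d := 4 * t)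
      (by omega) (by omega) (by omega)
    refine ⟨a, b, hab.mono ?_, ha, by omega⟩
    rintro u ⟨⟨hu1, hu2⟩, hu3, hu4⟩
    have := hb u hu2
    exact ⟨hu1, by rw [mem_rc]; omega⟩
  · right; left
    obtain ⟨a, b, ha, hb', hab, _, _⟩ := h4.exit (f := fun u => -u.1)
      (fun u v huv => by have := nn_fst v u huv.symm; omega) (c := 2 * t) (d := 4 * t)
      (by omega) (by omega) (by omega)
    refine ⟨b, a, hab.symm.mono ?_, by omega, by omega⟩
    rintro u ⟨⟨hu1, hu2⟩, hu3, hu4⟩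
    have := hb u hu2
    exact ⟨hu1, by rw [mem_rc]; omega⟩
  · right; right; left
    obtain ⟨a, b, ha, hb', hab, _, _⟩ := h4.exit (f := Prod.snd) nn_snd (c := 2 * t) (d := 4 * t)
      (by omega) (by omega) (by omega)
    refine ⟨a, b, hab.mono ?_, ha, by omega⟩
    rintro u ⟨⟨hu1, hu2⟩, hu3, hu4⟩
    have := hb u hu2
    exact ⟨hu1, by rw [mem_rc]; omega⟩
  · right; right; right
    obtain ⟨a, b, ha, hb', hab, _, _⟩ := h4.exit (f := fun u => -u.2)
      (fun u v huv => by have := nn_snd v u huv.symm; omega) (c := 2 * t) (d := 4 * t)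
      (by omega) (by omega) (by omega)
    refine ⟨b, a, hab.symm.mono ?_, by omega, by omega⟩
    rintro u ⟨⟨hu1, hu2⟩, hu3, hu4⟩
    have := hb u hu2
    exact ⟨hu1, by rw [mem_rc]; omega⟩

/-- **An arm gives an easy crossing.** -/
theorem out_le (P : PP) {t : ℤ} (ht : 1 ≤ t) : P.p (Out t) ≤ 4 * P.L t (4 * t) := by
  have h0 := P.mono (Out t) _ (fun S hS => Out.cases ht hS)
  have h1 := P.or_le (LRc t (2 * t) (-(2 * t)) (2 * t)) (fun S =>
    LRc (-(2 * t)) (-t) (-(2 * t)) (2 * t) S ∨ (BTc (-(2 * t)) (2 * t) t (2 * t) S ∨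
      BTc (-(2 * t)) (2 * t) (-(2 * t)) (-t) S))
  have h2 := P.or_le (LRc (-(2 * t)) (-t) (-(2 * t)) (2 * t)) (fun S =>
    BTc (-(2 * t)) (2 * t) t (2 * t) S ∨ BTc (-(2 * t)) (2 * t) (-(2 * t)) (-t) S)
  have h3 := P.or_le (BTc (-(2 * t)) (2 * t) t (2 * t)) (BTc (-(2 * t)) (2 * t) (-(2 * t)) (-t))
  have e1 : P.p (LRc t (2 * t) (-(2 * t)) (2 * t)) = P.L t (4 * t) := by
    rw [P.L_eq']; congr 1 <;> ring
  have e2 : P.p (LRc (-(2 * t)) (-t) (-(2 * t)) (2 * t)) = P.L t (4 * t) := by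
    rw [P.L_eq']; congr 1 <;> ring
  have e3 : P.p (BTc (-(2 * t)) (2 * t) t (2 * t)) = P.L t (4 * t) := by
    rw [P.B_eq']; congr 1 <;> ring
  have e4 : P.p (BTc (-(2 * t)) (2 * t) (-(2 * t)) (-t)) = P.L t (4 * t) := by
    rw [P.B_eq']; congr 1 <;> ring
  rw [e1] at h1
  rw [e2] at h2
  rw [e3, e4] at h3
  linarith

/-- The form consumed by the row `EASY`: an arm with probability at least `c` gives a crossing of
the rectangle of width `t` and height `4t` with probability at least `c / 4`. -/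
theorem easy_of_out (P : PP) {c : ℝ} {t : ℤ} (ht : 1 ≤ t) (h : c ≤ P.p (Out t)) :
    c / 4 ≤ P.L t (4 * t) := by
  have := out_le P ht
  linarith

theorem easy_of_tr (P : PP) {c : ℝ} {t : ℤ} (ht : 1 ≤ t) (h : c ≤ P.p (Tr t)) :
    c / 4 ≤ P.L t (4 * t) :=
  easy_of_out P ht (h.trans (P.mono _ _ (fun _ hS => hS.out)))

end Vale.Agent.P159.TM.H121
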