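import Vale.Agent.P159.TM.H121.Step0

/-!
# P159, T1, row A6: an arm of a gap gives a near-square crossing at the scale of the gap

`step_one` is the extent dichotomy with input at one scale only, `sq_of_arm` is the step (*) of
helper885: an arm of a gap of size `t + t / 100` up to distance at least `2 (t + t / 100)` gives
a crossing of `[0, t] × [0, t + t / 50]`.
-/

namespace Vale.Agent.P159.TM.H121

open Vale.Agent.P145.FB Vale.Agent.P159.RSW Relation

/-- The dichotomy with input at one scale. -/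
theorem step_one (P : PP) {p1 c1 : ℝ} (hc : 0 < c1) (h1 : c1 ≤ P.L 1 0) {t : ℤ} (ht : 1 ≤ t)
    (h2 : p1 ≤ P.L (t + t / 100) (4 * (t + t / 100))) :
    min (p1 / 4000) (c1 ^ 400) ≤ P.L t (t + t / 50) := by
  rcases lt_or_ge t 400 with h | h
  · refine (min_le_right _ _).trans ?_
    obtain ⟨n, hn⟩ : ∃ n : ℕ, t = n + 1 := ⟨(t - 1).toNat, by omega⟩
    have h2 := seg P hc h1 n
    rw [← hn] at h2
    have h3 : P.L t 0 ≤ P.L t (t + t / 50) := P.L_mono geo (by omega) le_rfl (by omega)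
    have h4 : c1 ^ 400 ≤ c1 ^ (n + 1) :=
      pow_le_pow_of_le_one hc.le (h1.trans (P.le_one _)) (by omega)
    linarith
  · refine (min_le_left _ _).trans ?_
    have h3 := dich_le P (s := t + t / 100) (k := t / 100) (w := t + t / 50) (t := t)
      (H := 4 * (t + t / 100)) (by omega) (by omega) (by omega) (by omega) 503 (by push_cast; omega)
    have h4 := P.L_nonneg t (t + t / 50)
    push_cast at h3
    linarith

/-- The four easy crossings of an arm which starts in the box `[p, p + r] × [q, q + r]` and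
reaches the height `q + 2 r`. -/
theorem arm_cases {p q r : ℤ} (_hr : 1 ≤ r) {S : Set (ℤ × ℤ)} {x y : ℤ × ℤ} (h1 : NC S x y)
    (h2 : x ∈ rc p (p + r) q (q + r)) (h3 : 2 * (q + 2 * r) ≤ y.2) :
    LRc (p + r) (p + 2 * r) (q - 2 * r) (q + 2 * r) S ∨
      (LRc (p - 2 * r) (p - r) (q - 2 * r) (q + 2 * r) S ∨
      (BTc (p - 2 * r) (p + 2 * r) (q + r) (q + 2 * r) S ∨
        BTc (p - 2 * r) (p + 2 * r) (q - 2 * r) (q - r) S)) := by
  set f : ℤ × ℤ → ℤ := fun u => nrm (u.1 - 2 * p, u.2 - 2 * q) with hf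
  have hfn : ∀ u v, NN u v → f v ≤ f u + 1 := by
    intro u v huv
    simp only [hf]
    unfold nrm
    unfold NN at huv
    dsimp only
    omega
  rw [mem_rc] at h2
  obtain ⟨z, hz, h4⟩ := h1.first hfn (d := 4 * r)
    (by simp only [hf]; unfold nrm; dsimp only; omega)
    (by simp only [hf]; unfold nrm; dsimp only; omega)
  have hb : ∀ u : ℤ × ℤ, f u ≤ 4 * r → 2 * p - 4 * r ≤ u.1 ∧ u.1 ≤ 2 * p + 4 * r ∧
      2 * q - 4 * r ≤ u.2 ∧ u.2 ≤ 2 * q + 4 * r := by
    intro u hu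
    simp only [hf] at hu
    unfold nrm at hu
    dsimp only at hu
    omega
  have hc : z.1 = 2 * p + 4 * r ∨ z.1 = 2 * p - 4 * r ∨ z.2 = 2 * q + 4 * r ∨
      z.2 = 2 * q - 4 * r := by
    simp only [hf] at hz
    unfold nrm at hz
    dsimp only at hz
    omega
  rcases hc with h | h | h | h
  · left
    obtain ⟨a, b, ha, hb', hab, _, _⟩ := h4.exit (f := Prod.fst) nn_fst (c := 2 * (p + r))
      (d := 2 * (p + 2 * r)) (by omega) (by omega) (by omega)
    refine ⟨a, b, hab.mono ?_, ha, by omega⟩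
    rintro u ⟨⟨hu1, hu2⟩, hu3, hu4⟩
    have := hb u hu2
    exact ⟨hu1, by rw [mem_rc]; omega⟩
  · right; left
    obtain ⟨a, b, ha, hb', hab, _, _⟩ := h4.exit (f := fun u => -u.1)
      (fun u v huv => by have := nn_fst v u huv.symm; omega) (c := -(2 * (p - r)))
      (d := -(2 * (p - 2 * r))) (by omega) (by omega) (by omega)
    refine ⟨b, a, hab.symm.mono ?_, by omega, by omega⟩
    rintro u ⟨⟨hu1, hu2⟩, hu3, hu4⟩
    have := hb u hu2
    exact ⟨hu1, by rw [mem_rc]; omega⟩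
  · right; right; left
    obtain ⟨a, b, ha, hb', hab, _, _⟩ := h4.exit (f := Prod.snd) nn_snd (c := 2 * (q + r))
      (d := 2 * (q + 2 * r)) (by omega) (by omega) (by omega)
    refine ⟨a, b, hab.mono ?_, ha, by omega⟩
    rintro u ⟨⟨hu1, hu2⟩, hu3, hu4⟩
    have := hb u hu2
    exact ⟨hu1, by rw [mem_rc]; omega⟩
  · right; right; right
    obtain ⟨a, b, ha, hb', hab, _, _⟩ := h4.exit (f := fun u => -u.2)
      (fun u v huv => by have := nn_snd v u huv.symm; omega) (c := -(2 * (q - r)))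
      (d := -(2 * (q - 2 * r))) (by omega) (by omega) (by omega)
    refine ⟨b, a, hab.symm.mono ?_, by omega, by omega⟩
    rintro u ⟨⟨hu1, hu2⟩, hu3, hu4⟩
    have := hb u hu2
    exact ⟨hu1, by rw [mem_rc]; omega⟩

/-- An arm of a gap of size `r` gives an easy crossing at scale `r`. -/
theorem narm_le (P : PP) {N x y r : ℤ} (hr : 1 ≤ r) (hy : y + 2 * r ≤ N) :
    P.p (NArm 0 N 0 N x y r) ≤ 4 * P.L r (4 * r) := by
  have h0 := P.mono (NArm 0 N 0 N x y r) _ (fun S hS => by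
    obtain ⟨u, v, huv, hu, hv⟩ := hS
    exact arm_cases hr (huv.mono Set.inter_subset_left) hu (by omega))
  have h1 := P.or_le (LRc (x + r) (x + 2 * r) (y - 2 * r) (y + 2 * r)) (fun S =>
    LRc (x - 2 * r) (x - r) (y - 2 * r) (y + 2 * r) S ∨
      (BTc (x - 2 * r) (x + 2 * r) (y + r) (y + 2 * r) S ∨
      BTc (x - 2 * r) (x + 2 * r) (y - 2 * r) (y - r) S))
  have h2 := P.or_le (LRc (x - 2 * r) (x - r) (y - 2 * r) (y + 2 * r)) (fun S =>
    BTc (x - 2 * r) (x + 2 * r) (y + r) (y + 2 * r) S ∨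
      BTc (x - 2 * r) (x + 2 * r) (y - 2 * r) (y - r) S)
  have h3 := P.or_le (BTc (x - 2 * r) (x + 2 * r) (y + r) (y + 2 * r))
    (BTc (x - 2 * r) (x + 2 * r) (y - 2 * r) (y - r))
  have e1 : P.p (LRc (x + r) (x + 2 * r) (y - 2 * r) (y + 2 * r)) = P.L r (4 * r) := by
    rw [P.L_eq']; congr 1 <;> ring
  have e2 : P.p (LRc (x - 2 * r) (x - r) (y - 2 * r) (y + 2 * r)) = P.L r (4 * r) := by
    rw [P.L_eq']; congr 1 <;> ring
  have e3 : P.p (BTc (x - 2 * r) (x + 2 * r) (y + r) (y + 2 * r)) = P.L r (4 * r) := by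
    rw [P.B_eq']; congr 1 <;> ring
  have e4 : P.p (BTc (x - 2 * r) (x + 2 * r) (y - 2 * r) (y - r)) = P.L r (4 * r) := by
    rw [P.B_eq']; congr 1 <;> ring
  rw [e1] at h1
  rw [e2] at h2
  rw [e3, e4] at h3
  linarith

/-- **Step (*)**: an arm of a gap of size `t + t / 100` gives a near-square crossing at scale
`t`. -/
theorem sq_of_arm (P : PP) {c c1 : ℝ} (hc1 : 0 < c1) (h1 : c1 ≤ P.L 1 0) {t N : ℤ} (ht : 1 ≤ t)
    (hN : 4 * (t + t / 100) ≤ N) (hA : ARM P c N (t + t / 100)) :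
    min (c / 16000) (c1 ^ 400) ≤ P.L t (t + t / 50) := by
  obtain ⟨x, y, hx, hx', hy, hy', h⟩ := hA
  have h2 := narm_le P (N := N) (x := x) (y := y) (r := t + t / 100) (by omega) (by omega)
  have h3 : c / 4 ≤ P.L (t + t / 100) (4 * (t + t / 100)) := by linarith
  have h4 := step_one P hc1 h1 ht h3
  have e : c / 4 / 4000 = c / 16000 := by ring
  rwa [e] at h4

end Vale.Agent.P159.TM.H121
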