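import Vale.Agent.P159.TM.H121.Out
import Vale.Agent.P159.RSW.Spec2

/-!
# P159, T1, row A6 / R6: easy crossings give crossings of almost squares

The extent dichotomy (helper146, helper250, helper527): a crossing of `[0, s] × [0, 4s]` either has
small vertical extent, then it crosses a window of height about `s`, or large vertical extent, then
it contains a vertical crossing of a strip `[0, s] × [y, y + t]`.
-/

namespace Vale.Agent.P159.TM.H121

open Vale.Agent.P145.FB Relation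

/-- A path stays in `T` or visits the complement of `T`. -/
theorem split {S : Set (ℤ × ℤ)} (T : Set (ℤ × ℤ)) {x y : ℤ × ℤ} (h : NC S x y) :
    NC (S ∩ T) x y ∨ ∃ z, z ∉ T ∧ NC S x z := by
  by_cases hT : ∃ z, z ∉ T ∧ NC S x z
  · exact Or.inr hT
  · left
    have hT' : ∀ z, NC S x z → z ∈ T := by
      intro z hz
      by_contra h'
      exact hT ⟨z, h', hz⟩
    exact NC.ind (fun z => NC (S ∩ T) x z) (NC.refl ⟨h.1, hT' x (NC.refl h.1)⟩)
      (fun u v hu huv hv ih => ih.tail huv ⟨hv, hT' v (hu.tail huv hv)⟩) h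

/-- The extent dichotomy. -/
theorem dich {s k w t H : ℤ} (ht : 0 ≤ t) (hw : k + t ≤ w) {S : Set (ℤ × ℤ)} {x y : ℤ × ℤ}
    (hx : x.1 = 0) (hy : y.1 = 2 * s) (h : NC (S ∩ rc 0 s 0 H) x y) (n : ℕ) :
    (∃ i : ℕ, i ≤ n ∧ LRc 0 s (i * k) (i * k + w) S) ∨
      (∃ i : ℕ, i ≤ n ∧ BTc 0 s ((i + 1) * k) ((i + 1) * k + t) S) ∨
        NC (S ∩ rc 0 s ((n + 1) * k) H) x y := by
  have step : ∀ m : ℕ, NC (S ∩ rc 0 s (m * k) H) x y → LRc 0 s (m * k) (m * k + w) S ∨
      BTc 0 s ((m + 1) * k) ((m + 1) * k + t) S ∨ NC (S ∩ rc 0 s ((m + 1) * k) H) x y := by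
    intro m hm
    rcases split {z | z.2 ≤ 2 * (m * k + w)} hm with h1 | ⟨z1, hz1, h1⟩
    · left
      refine ⟨x, y, h1.mono ?_, by omega, hy⟩
      rintro u ⟨⟨hu1, hu2⟩, hu3⟩
      rw [mem_rc] at hu2
      simp only [Set.mem_ofPred_eq] at hu3
      exact ⟨hu1, by rw [mem_rc]; omega⟩
    · rcases split {z | 2 * ((m + 1) * k) ≤ z.2} hm with h2 | ⟨z2, hz2, h2⟩
      · right; right
        refine h2.mono ?_
        rintro u ⟨⟨hu1, hu2⟩, hu3⟩
        rw [mem_rc] at hu2
        simp only [Set.mem_ofPred_eq] at hu3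
        exact ⟨hu1, by rw [mem_rc]; omega⟩
      · right; left
        simp only [Set.mem_ofPred_eq, not_le] at hz1 hz2
        have h3 := h2.symm.trans h1
        have e : ((m : ℤ) + 1) * k = m * k + k := by ring
        obtain ⟨a, b, ha, hb, hab, _, _⟩ := h3.exit (f := Prod.snd) nn_snd
          (c := 2 * ((m + 1) * k)) (d := 2 * ((m + 1) * k + t)) (by omega) (by omega)
          (by rw [e]; omega)
        refine ⟨a, b, hab.mono ?_, ha, hb⟩
        rintro u ⟨⟨hu1, hu2⟩, hu3, hu4⟩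
        rw [mem_rc] at hu2
        exact ⟨hu1, by rw [mem_rc]; omega⟩
  induction n with
  | zero =>
    have h0 : NC (S ∩ rc 0 s ((0 : ℕ) * k) H) x y := by simpa using h
    rcases step 0 h0 with h1 | h1 | h1
    · exact Or.inl ⟨0, le_rfl, h1⟩
    · exact Or.inr (Or.inl ⟨0, le_rfl, h1⟩)
    · exact Or.inr (Or.inr h1)
  | succ n ih =>
    rcases ih with ⟨i, hi, h1⟩ | ⟨i, hi, h1⟩ | h1
    · exact Or.inl ⟨i, by omega, h1⟩
    · exact Or.inr (Or.inl ⟨i, by omega, h1⟩)
    · have h0 : NC (S ∩ rc 0 s ((n + 1 : ℕ) * k) H) x y := by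
        push_cast; exact h1
      rcases step (n + 1) h0 with h2 | h2 | h2
      · exact Or.inl ⟨n + 1, le_rfl, h2⟩
      · exact Or.inr (Or.inl ⟨n + 1, le_rfl, h2⟩)
      · exact Or.inr (Or.inr h2)

/-- Union bound. -/
theorem union (P : PP) {Q : ℕ → Set (ℤ × ℤ) → Prop} {a : ℝ} (h : ∀ i, P.p (Q i) ≤ a) (n : ℕ) :
    P.p (fun S => ∃ i, i ≤ n ∧ Q i S) ≤ (n + 1) * a := by
  induction n with
  | zero =>
    refine (P.mono _ (Q 0) ?_).trans (by simpa using h 0)
    rintro S ⟨i, hi, hQ⟩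
    obtain rfl : i = 0 := by omega
    exact hQ
  | succ n ih =>
    have h1 := P.or_le (fun S => ∃ i, i ≤ n ∧ Q i S) (Q (n + 1))
    have h2 : P.p (fun S => ∃ i, i ≤ n + 1 ∧ Q i S) ≤
        P.p (fun S => (∃ i, i ≤ n ∧ Q i S) ∨ Q (n + 1) S) := by
      refine P.mono _ _ ?_
      rintro S ⟨i, hi, hQ⟩
      rcases Nat.lt_or_ge n i with h' | h'
      · obtain rfl : i = n + 1 := by omega
        exact Or.inr hQ
      · exact Or.inl ⟨i, h', hQ⟩
    have h3 := h (n + 1)
    push_cast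
    linarith

/-- The dichotomy, in probability. -/
theorem dich_le (P : PP) {s k w t H : ℤ} (ht : 0 ≤ t) (hts : t ≤ s) (hw : k + t ≤ w)
    (hsw : s ≤ w) (n : ℕ) (hn : H < (n + 1) * k) : P.L s H ≤ 2 * (n + 1) * P.L t w := by
  have hL : ∀ i : ℕ, P.p (LRc 0 s (i * k) (i * k + w)) ≤ P.L t w := by
    intro i
    rw [P.L_eq']
    have e1 : s - 0 = s := by ring
    have e2 : (i : ℤ) * k + w - i * k = w := by ring
    rw [e1, e2]
    exact P.L_mono geo ht hts le_rfl
  have hB : ∀ i : ℕ, P.p (BTc 0 s ((i + 1) * k) ((i + 1) * k + t)) ≤ P.L t w := by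
    intro i
    rw [P.B_eq']
    have e1 : s - 0 = s := by ring
    have e2 : ((i : ℤ) + 1) * k + t - (i + 1) * k = t := by ring
    rw [e1, e2]
    exact P.L_mono geo ht le_rfl hsw
  have h1 := union P hL n
  have h2 := union P hB n
  have h3 := P.or_le (fun S => ∃ i : ℕ, i ≤ n ∧ LRc 0 s (i * k) (i * k + w) S)
    (fun S => ∃ i : ℕ, i ≤ n ∧ BTc 0 s ((i + 1) * k) ((i + 1) * k + t) S)
  have h4 : P.L s H ≤ P.p (fun S => (∃ i : ℕ, i ≤ n ∧ LRc 0 s (i * k) (i * k + w) S) ∨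
      (∃ i : ℕ, i ≤ n ∧ BTc 0 s ((i + 1) * k) ((i + 1) * k + t) S)) := by
    refine P.mono _ _ ?_
    rintro S ⟨x, y, h, hx, hy⟩
    rcases dich ht hw (by omega) hy h n with h5 | h5 | h5
    · exact Or.inl h5
    · exact Or.inr h5
    · exfalso
      have h6 := h5.1.2
      rw [mem_rc] at h6
      omega
  linarith

/-- A straight open segment. -/
theorem seg (P : PP) {c1 : ℝ} (h0 : 0 < c1) (h1 : c1 ≤ P.L 1 0) (n : ℕ) :
    c1 ^ (n + 1) ≤ P.L (n + 1) 0 := by
  induction n with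
  | zero => simpa using h1
  | succ n ih =>
    have h2 : c1 ≤ P.p (LRc (n + 1) (n + 1 + 1) 0 0) := by
      rw [P.L_eq']
      have e1 : (n : ℤ) + 1 + 1 - (n + 1) = 1 := by ring
      rw [e1]; exact h1
    have h3 := P.fkg2 (T := LRc 0 (n + 1 + 1) 0 0) (IL_LRc 0 (n + 1) 0 0)
      (IL_LRc (n + 1) (n + 1 + 1) 0 0) ?_ (pow_nonneg h0.le _) h0.le ih h2
    · have e : c1 ^ (n + 1 + 1) = c1 ^ (n + 1) * c1 := by ring
      rw [e]
      push_cast
      exact h3
    · rintro S ⟨x, y, hxy, hx, hy⟩ ⟨u, v, huv, hu, hv⟩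
      have hy2 := hxy.right_mem.2
      have hu2 := huv.left_mem.2
      rw [mem_rc] at hy2 hu2
      have e : y = u := Prod.ext (by omega) (by omega)
      subst e
      refine ⟨x, v, (hxy.mono ?_).trans (huv.mono ?_), hx, hv⟩
      · exact Set.inter_subset_inter_right S (rc_mono le_rfl (by omega) le_rfl le_rfl)
      · exact Set.inter_subset_inter_right S (rc_mono (by omega) le_rfl le_rfl le_rfl)

/-- **Easy crossings at all scales give crossings of almost squares at all scales.** -/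
theorem step0 (P : PP) (p1 c1 : ℝ) (hp : 0 < p1) (hc : 0 < c1) (h1 : c1 ≤ P.L 1 0) (N : ℤ)
    (hN : ∀ s, 1 ≤ s → s ≤ N → p1 ≤ P.L s (4 * s)) (t : ℤ) (ht : 1 ≤ t) (htN : t + t / 100 ≤ N) :
    min (p1 / 4000) (c1 ^ 400) ≤ P.L t (t + t / 50) := by
  rcases lt_or_ge t 400 with h | h
  · refine (min_le_right _ _).trans ?_
    obtain ⟨n, hn⟩ : ∃ n : ℕ, t = n + 1 := ⟨(t - 1).toNat, by omega⟩
    have h2 := seg P hc h1 n
    rw [← hn] at h2
    have h3 : P.L t 0 ≤ P.L t (t + t / 50) := P.L_mono geo (by omega) le_rfl (by omega)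
    have h4 : c1 ^ 400 ≤ c1 ^ (n + 1) :=
      pow_le_pow_of_le_one hc.le (h1.trans (P.le_one _)) (by omega)
    linarith
  · refine (min_le_left _ _).trans ?_
    have h2 := hN (t + t / 100) (by omega) htN
    have h3 := dich_le P (s := t + t / 100) (k := t / 100) (w := t + t / 50) (t := t)
      (H := 4 * (t + t / 100)) (by omega) (by omega) (by omega) (by omega) 503 (by push_cast; omega)
    have h4 := P.L_nonneg t (t + t / 50)
    push_cast at h3
    linarith

/-- The literal row. -/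
theorem step : RSW.StepStmt := step0

end Vale.Agent.P159.TM.H121
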